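import Vale.Agent.Lib.P362.Main

/-!
Any `T`-query bounded-error quantum algorithm for a Boolean function with a suitable symmetry
satisfies `n ≤ 1296 T ^ 2`.  Four forms: cyclically invariant functions with different values at the
two constant inputs; nonconstant monotone cyclically invariant functions; functions with a symmetry
having no nonempty invariant set on which the function keeps its value at the empty set; and
subfunctions with a symmetry of nonzero Lefschetz number.
-/

namespace Vale.Agent.Results.P362.SymmetryBound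

open Vale.Agent.Lib.P362

theorem result {n : ℕ} (f : (Fin n → Bool) → Bool) {W : Type} [Fintype W] [DecidableEq W]
    (A : QueryAlg n W) (T : ℕ) (hA : A.Computes T f) :
    (∀ g : Equiv.Perm (Fin n), (∀ y, f (y ∘ g) = f y) → (∀ i j, ∃ k : ℕ, (g ^ k) i = j) →
      f (fun _ => true) ≠ f (fun _ => false) → (n : ℝ) ≤ 1296 * (T : ℝ) ^ 2) ∧
    (Monotone f → (∃ x y, f x ≠ f y) → ∀ g : Equiv.Perm (Fin n), (∀ y, f (y ∘ g) = f y) →
      (∀ i j, ∃ k : ℕ, (g ^ k) i = j) → (n : ℝ) ≤ 1296 * (T : ℝ) ^ 2) ∧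
    (∀ g : Equiv.Perm (Fin n), (∀ y, f (y ∘ g) = f y) →
      (∀ S : Finset (Fin n), S.Nonempty → S.map g.toEmbedding = S →
        f (pt S) ≠ f (fun _ => false)) → (n : ℝ) ≤ 1296 * (T : ℝ) ^ 2) ∧
    (∀ (m : ℕ) (e : Fin m ↪ Fin n) (ρ : Fin n → Bool) (g : Equiv.Perm (Fin m)) (b : Bool),
      (∀ y, subfun f e ρ (y ∘ g) = subfun f e ρ y) →
      lefschetz (fun S => subfun f e ρ (pt S) = b) g ≠ 0 → (m : ℝ) ≤ 1296 * (T : ℝ) ^ 2) :=
  ⟨fun g hinv htrans hne => bound_cyclic f g hinv htrans hne A T hA,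
   fun hmono hnc g hinv htrans => bound_monotone f hmono hnc g hinv htrans A T hA,
   fun g hinv hfree => bound_free f g hinv hfree A T hA,
   fun _ e ρ g b hinv hL => bound_general f e ρ g b hinv hL A T hA⟩

end Vale.Agent.Results.P362.SymmetryBound
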