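import Vale.Agent.Results.P362.MonotoneOverlap
import Vale.Agent.Results.P362.SymmetryBound

open Vale.Agent.P362 Vale.Agent.Lib.P362 in
/-- Both query bounds: (1) monotone functions with bounded overlap of minterms or maxterms have a decision tree of depth
`D` with `D ^ 2 ≤ 16 * (ι + 1) * W ^ 3`; (2) `n ≤ 1296 T ^ 2` for `T`-query quantum algorithms and functions with a suitable
symmetry. -/
theorem Vale.Agent.Results.P362.A0Conj.result :
    (∀ {n : ℕ} (f : Finset (Fin n) → Bool) (_ : Mono f) (ι W : ℕ)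
      (_ : MintermOverlap f ι ∨ MaxtermOverlap f ι) (_ : CoreBound f W),
      ∃ t : DTree n, (∀ x, t.eval x = f x) ∧ t.depth ^ 2 ≤ 16 * (ι + 1) * W ^ 3) ∧
    (∀ {n : ℕ} (f : (Fin n → Bool) → Bool) {W : Type} [Fintype W] [DecidableEq W]
      (A : QueryAlg n W) (T : ℕ) (_ : A.Computes T f),
      (∀ g : Equiv.Perm (Fin n), (∀ y, f (y ∘ g) = f y) → (∀ i j, ∃ k : ℕ, (g ^ k) i = j) →
        f (fun _ => true) ≠ f (fun _ => false) → (n : ℝ) ≤ 1296 * (T : ℝ) ^ 2) ∧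
      (Monotone f → (∃ x y, f x ≠ f y) → ∀ g : Equiv.Perm (Fin n), (∀ y, f (y ∘ g) = f y) →
        (∀ i j, ∃ k : ℕ, (g ^ k) i = j) → (n : ℝ) ≤ 1296 * (T : ℝ) ^ 2) ∧
      (∀ g : Equiv.Perm (Fin n), (∀ y, f (y ∘ g) = f y) →
        (∀ S : Finset (Fin n), S.Nonempty → S.map g.toEmbedding = S →
          f (pt S) ≠ f (fun _ => false)) → (n : ℝ) ≤ 1296 * (T : ℝ) ^ 2) ∧
      (∀ (m : ℕ) (e : Fin m ↪ Fin n) (ρ : Fin n → Bool) (g : Equiv.Perm (Fin m)) (b : Bool),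
        (∀ y, subfun f e ρ (y ∘ g) = subfun f e ρ y) →
        lefschetz (fun S => subfun f e ρ (pt S) = b) g ≠ 0 → (m : ℝ) ≤ 1296 * (T : ℝ) ^ 2)) :=
  ⟨@Vale.Agent.Results.P362.MonotoneOverlap.result, @Vale.Agent.Results.P362.SymmetryBound.result⟩
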