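import Vale.Agent.Lib.P362.MonoCore

open Vale.Agent.P362 in
/-- A monotone `f` whose minterms (or maxterms) pairwise share at most `ι` variables, and all of
whose sensitive-edge cores have `a * b ≤ W`, has a decision tree of depth `D` with
`D ^ 2 ≤ 16 * (ι + 1) * W ^ 3`. -/
theorem Vale.Agent.Results.P362.MonotoneOverlap.result {n : ℕ}
    (f : Finset (Fin n) → Bool) (hf : Mono f) (ι W : ℕ)
    (hov : MintermOverlap f ι ∨ MaxtermOverlap f ι) (hW : CoreBound f W) :
    ∃ t : DTree n, (∀ x, t.eval x = f x) ∧ t.depth ^ 2 ≤ 16 * (ι + 1) * W ^ 3 :=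
  decisionTree_sq_le f hf ι W hov hW
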